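import Mathlib

/-!
P092 (helper268), project RE, block [RE-C], algebra half: for a real matrix `E` with
`E Eᵀ - Eᵀ E = diag y` and `[diag y, E] = 2 E` the top coordinate row of `y` generates the binary
forms of degree `m = max y` under `E` and `Eᵀ`.
-/

set_option linter.all false

open Matrix Filter Topology

namespace Vale.Agent.P092.H268.Re

variable {n : ℕ}

/-- the row `η Eᵏ`, `η` the `a`-th coordinate row -/
def er (E : Matrix (Fin n) (Fin n) ℝ) (a : Fin n) (k : ℕ) : Fin n → ℝ :=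
  (Pi.single a 1 : Fin n → ℝ) ᵥ* E ^ k

theorem er_zero (E : Matrix (Fin n) (Fin n) ℝ) (a : Fin n) :
    er E a 0 = (Pi.single a 1 : Fin n → ℝ) := by
  simp [er]

theorem er_succ (E : Matrix (Fin n) (Fin n) ℝ) (a : Fin n) (k : ℕ) :
    er E a (k + 1) = er E a k ᵥ* E := by
  rw [er, er, pow_succ, vecMul_vecMul]

theorem single_vecMul_diagonal (a : Fin n) (x : Fin n → ℝ) :
    (Pi.single a 1 : Fin n → ℝ) ᵥ* diagonal x = x a • (Pi.single a 1 : Fin n → ℝ) := by
  ext b
  rw [vecMul_diagonal]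
  by_cases h : b = a
  · subst h; simp
  · simp [h]

/-- the rows are weight vectors -/
theorem er_diag {E : Matrix (Fin n) (Fin n) ℝ} {x : Fin n → ℝ} {c : ℝ}
    (hx : diagonal x * E - E * diagonal x = c • E) (a : Fin n) (k : ℕ) :
    er E a k ᵥ* diagonal x = (x a - k * c) • er E a k := by
  induction k with
  | zero =>
    rw [er_zero, single_vecMul_diagonal, Nat.cast_zero, zero_mul, sub_zero]
  | succ k ih =>
    have h1 : E * diagonal x = diagonal x * E - c • E := by rw [← hx]; abel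
    rw [er_succ, vecMul_vecMul, h1, vecMul_sub, ← vecMul_vecMul, ih, smul_vecMul, vecMul_smul,
      ← sub_smul]
    congr 1
    push_cast
    ring

theorem er_supp {E : Matrix (Fin n) (Fin n) ℝ} {x : Fin n → ℝ} {c : ℝ}
    (hx : diagonal x * E - E * diagonal x = c • E) (a : Fin n) (k : ℕ) (b : Fin n)
    (hb : er E a k b ≠ 0) : x b = x a - k * c := by
  have h1 := congrFun (er_diag hx a k) b
  rw [vecMul_diagonal, Pi.smul_apply, smul_eq_mul, mul_comm] at h1
  exact mul_right_cancel₀ hb h1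

/-- the top row of `y` is killed by `Eᵀ` -/
theorem er_top {E : Matrix (Fin n) (Fin n) ℝ} {y : Fin n → ℝ}
    (hy : diagonal y * E - E * diagonal y = (2 : ℝ) • E) (a : Fin n) (ha : ∀ b, y b ≤ y a) :
    er E a 0 ᵥ* Eᵀ = 0 := by
  ext b
  rw [er_zero, single_one_vecMul, Matrix.row_apply, transpose_apply, Pi.zero_apply]
  by_contra hb
  have h1 := congrFun (congrFun hy b) a
  rw [Matrix.sub_apply, diagonal_mul, mul_diagonal, Matrix.smul_apply, smul_eq_mul] at h1
  have h2 : (y b - y a - 2) * E b a = 0 := by linarith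
  rcases mul_eq_zero.1 h2 with h3 | h3
  · have := ha b
    linarith
  · exact hb h3

theorem er_tr {E : Matrix (Fin n) (Fin n) ℝ} {y : Fin n → ℝ}
    (hE : E * Eᵀ - Eᵀ * E = diagonal y)
    (hy : diagonal y * E - E * diagonal y = (2 : ℝ) • E) (a : Fin n) (ha : ∀ b, y b ≤ y a)
    (k : ℕ) : er E a (k + 1) ᵥ* Eᵀ = ((k + 1) * (y a - k)) • er E a k := by
  have h1 : E * Eᵀ = Eᵀ * E + diagonal y := by rw [← hE]; abel
  induction k with
  | zero =>
    rw [er_succ, vecMul_vecMul, h1, vecMul_add, ← vecMul_vecMul, er_top hy a ha, zero_vecMul,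
      zero_add, er_diag hy]
    congr 1
    push_cast
    ring
  | succ k ih =>
    rw [er_succ, vecMul_vecMul, h1, vecMul_add, ← vecMul_vecMul, ih, smul_vecMul, ← er_succ,
      er_diag hy, ← add_smul]
    congr 1
    push_cast
    ring

theorem er_add {E : Matrix (Fin n) (Fin n) ℝ} {a : Fin n} {k : ℕ} (h : er E a k = 0) (j : ℕ) :
    er E a (k + j) = 0 := by
  induction j with
  | zero => exact h
  | succ j ih => rw [← add_assoc, er_succ, ih, zero_vecMul]

/-- the degree -/
theorem exists_deg {E : Matrix (Fin n) (Fin n) ℝ} {y : Fin n → ℝ}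
    (hE : E * Eᵀ - Eᵀ * E = diagonal y)
    (hy : diagonal y * E - E * diagonal y = (2 : ℝ) • E) (a : Fin n) (ha : ∀ b, y b ≤ y a) :
    ∃ m : ℕ, y a = m ∧ er E a (m + 1) = 0 ∧ er E a m ≠ 0 := by
  have hex : ∃ k, er E a k = 0 := by
    by_contra hne
    push Not at hne
    have h1 : ∀ k, ∃ b, er E a k b ≠ 0 := fun k => Function.ne_iff.1 (hne k)
    choose b hb using h1
    have hinj : Function.Injective b := by
      intro k l hkl
      have h2 := er_supp hy a k (b k) (hb k)
      have h3 := er_supp hy a l (b l) (hb l)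
      rw [hkl, h3] at h2
      have h4 : (l : ℝ) = k := by linarith
      exact (Nat.cast_injective h4).symm
    exact not_injective_infinite_finite b hinj
  classical
  have h0 : er E a 0 ≠ 0 := by
    rw [er_zero]
    intro h
    have := congrFun h a
    simp at this
  obtain ⟨m, hm⟩ : ∃ m, Nat.find hex = m + 1 := by
    refine Nat.exists_eq_succ_of_ne_zero ?_
    intro h
    exact h0 (h ▸ Nat.find_spec hex)
  have hK : er E a (m + 1) = 0 := hm ▸ Nat.find_spec hex
  have hm1 : er E a m ≠ 0 := Nat.find_min hex (by omega)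
  refine ⟨m, ?_, hK, hm1⟩
  have h2 := er_tr hE hy a ha m
  rw [hK, zero_vecMul] at h2
  rcases smul_eq_zero.1 h2.symm with h3 | h3
  · rcases mul_eq_zero.1 h3 with h4 | h4
    · have : (0 : ℝ) < (m : ℝ) + 1 := by positivity
      linarith
    · linarith
  · exact absurd h3 hm1

/-- the coefficients -/
noncomputable def cz (m k : ℕ) (v : ℝ × ℝ) : ℝ :=
  v.2 ^ (m - k) * (-v.1) ^ k / (k.factorial : ℝ)

/-- the equivariant map from the plane to the rows -/
noncomputable def zeta (E : Matrix (Fin n) (Fin n) ℝ) (a : Fin n) (m : ℕ) (v : ℝ × ℝ) :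
    Fin n → ℝ := ∑ k ∈ Finset.range (m + 1), cz m k v • er E a k

theorem cont_zeta (E : Matrix (Fin n) (Fin n) ℝ) (a : Fin n) (m : ℕ) :
    Continuous (zeta E a m) := by
  unfold zeta cz
  fun_prop

theorem zeta_smul (E : Matrix (Fin n) (Fin n) ℝ) (a : Fin n) (m : ℕ) (s : ℝ) (v : ℝ × ℝ) :
    zeta E a m (s • v) = s ^ m • zeta E a m v := by
  rw [zeta, zeta, Finset.smul_sum]
  refine Finset.sum_congr rfl fun k hk => ?_
  rw [smul_smul]
  congr 1
  have hk' : k ≤ m := Nat.lt_succ_iff.1 (Finset.mem_range.1 hk)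
  simp only [cz, Prod.smul_fst, Prod.smul_snd, smul_eq_mul]
  rw [mul_pow, neg_mul_eq_mul_neg, mul_pow]
  have : s ^ m = s ^ (m - k) * s ^ k := by rw [← pow_add, Nat.sub_add_cancel hk']
  rw [this]
  ring

section

variable {E : Matrix (Fin n) (Fin n) ℝ} {y : Fin n → ℝ} {a : Fin n} {m : ℕ}

theorem zeta_apply_zero (hy : diagonal y * E - E * diagonal y = (2 : ℝ) • E)
    (b : Fin n) (j : ℕ) (hj : j ≤ m) (hb : er E a j b ≠ 0) (v : ℝ × ℝ) :
    zeta E a m v b = cz m j v * er E a j b := by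
  rw [zeta, Finset.sum_apply, Finset.sum_eq_single j]
  · rfl
  · intro k _ hk
    rw [Pi.smul_apply, smul_eq_mul]
    by_cases h : er E a k b = 0
    · rw [h, mul_zero]
    · exfalso
      have h1 := er_supp hy a k b h
      have h2 := er_supp hy a j b hb
      rw [h2] at h1
      have h3 : (k : ℝ) = j := by linarith
      exact hk (Nat.cast_injective h3)
  · intro h
    exact absurd (Finset.mem_range.2 (by omega)) h

theorem zeta_ne (hy : diagonal y * E - E * diagonal y = (2 : ℝ) • E)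
    (hm1 : er E a m ≠ 0) (v : ℝ × ℝ) (hv : v ≠ 0) : zeta E a m v ≠ 0 := by
  by_cases h2 : v.2 = 0
  · have h1 : v.1 ≠ 0 := fun h => hv (Prod.ext h h2)
    obtain ⟨b, hb⟩ := Function.ne_iff.1 hm1
    intro h
    have h3 := zeta_apply_zero (m := m) hy b m le_rfl hb v
    rw [h, Pi.zero_apply, cz] at h3
    have h4 : v.2 ^ (m - m) * (-v.1) ^ m / (m.factorial : ℝ) ≠ 0 := by
      rw [Nat.sub_self, pow_zero, one_mul]
      exact div_ne_zero (pow_ne_zero _ (neg_ne_zero.2 h1)) (Nat.cast_ne_zero.2 m.factorial_ne_zero)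
    exact mul_ne_zero h4 hb h3.symm
  · intro h
    have ha : er E a 0 a ≠ 0 := by rw [er_zero]; simp
    have h3 := zeta_apply_zero (m := m) hy a 0 (Nat.zero_le _) ha v
    rw [h, Pi.zero_apply, cz] at h3
    have h4 : v.2 ^ (m - 0) * (-v.1) ^ 0 / ((0 : ℕ).factorial : ℝ) ≠ 0 := by
      simp only [Nat.sub_zero, pow_zero, mul_one, Nat.factorial_zero, Nat.cast_one, div_one]
      exact pow_ne_zero _ h2
    exact mul_ne_zero h4 ha h3.symm

theorem zeta_E (hm0 : er E a (m + 1) = 0) (v : ℝ × ℝ) :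
    zeta E a m v ᵥ* E = ∑ k ∈ Finset.range m, cz m k v • er E a (k + 1) := by
  rw [zeta, sum_vecMul, Finset.sum_range_succ]
  simp only [smul_vecMul, ← er_succ]
  rw [hm0, smul_zero, add_zero]

theorem zeta_F (hE : E * Eᵀ - Eᵀ * E = diagonal y)
    (hy : diagonal y * E - E * diagonal y = (2 : ℝ) • E) (ha : ∀ b, y b ≤ y a)
    (hya : y a = m) (v : ℝ × ℝ) :
    zeta E a m v ᵥ* Eᵀ =
      ∑ k ∈ Finset.range m, (cz m (k + 1) v * ((k + 1) * (m - k))) • er E a k := by
  rw [zeta, sum_vecMul, Finset.sum_range_succ']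
  simp only [smul_vecMul]
  rw [er_top hy a ha, smul_zero, add_zero]
  refine Finset.sum_congr rfl fun k _ => ?_
  rw [er_tr hE hy a ha, smul_smul, hya]

theorem hasDerivAt_cz_one {k : ℕ} (hk : k < m) (v : ℝ × ℝ) (s : ℝ) :
    HasDerivAt (fun s : ℝ => cz m (k + 1) (v.1 - s * v.2, v.2))
      (cz m k (v.1 - s * v.2, v.2)) s := by
  have h1 : HasDerivAt (fun s : ℝ => -(v.1 - s * v.2)) v.2 s := by
    have h2 : HasDerivAt (fun s : ℝ => s * v.2) v.2 s := by
      simpa using (hasDerivAt_id s).mul_const v.2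
    refine (h2.sub_const v.1).congr_of_eventuallyEq (Eventually.of_forall fun t => ?_)
    show -(v.1 - t * v.2) = t * v.2 - v.1
    ring
  have h4 := ((h1.pow (k + 1)).const_mul (v.2 ^ (m - (k + 1)))).div_const ((k + 1).factorial : ℝ)
  refine HasDerivAt.congr_deriv (f := fun s : ℝ => cz m (k + 1) (v.1 - s * v.2, v.2)) h4 ?_
  simp only [cz, Nat.add_sub_cancel]
  have h6 : v.2 ^ (m - k) = v.2 ^ (m - (k + 1)) * v.2 := by
    rw [← pow_succ]; congr 1; omega
  rw [h6, Nat.factorial_succ]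
  have h7 : (k.factorial : ℝ) ≠ 0 := Nat.cast_ne_zero.2 k.factorial_ne_zero
  push_cast
  field_simp

theorem hasDerivAt_cz_two {k : ℕ} (hk : k < m) (v : ℝ × ℝ) (s : ℝ) :
    HasDerivAt (fun s : ℝ => cz m k (v.1, v.2 - s * v.1))
      (cz m (k + 1) (v.1, v.2 - s * v.1) * ((k + 1) * (m - k))) s := by
  have h1 : HasDerivAt (fun s : ℝ => v.2 - s * v.1) (-v.1) s := by
    have h2 : HasDerivAt (fun s : ℝ => s * v.1) v.1 s := by
      simpa using (hasDerivAt_id s).mul_const v.1
    simpa using h2.const_sub v.2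
  have h4 := ((h1.pow (m - k)).mul_const ((-v.1) ^ k)).div_const (k.factorial : ℝ)
  refine HasDerivAt.congr_deriv (f := fun s : ℝ => cz m k (v.1, v.2 - s * v.1)) h4 ?_
  simp only [cz]
  have h6 : m - k - 1 = m - (k + 1) := by omega
  have h8 : ((m - k : ℕ) : ℝ) = (m : ℝ) - k := Nat.cast_sub hk.le
  rw [h6, h8, Nat.factorial_succ, pow_succ (-v.1) k]
  have h7 : (k.factorial : ℝ) ≠ 0 := Nat.cast_ne_zero.2 k.factorial_ne_zero
  have h9 : (k : ℝ) + 1 ≠ 0 := by positivity
  push_cast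
  field_simp

theorem hasDerivAt_zeta_one (hm0 : er E a (m + 1) = 0) (v : ℝ × ℝ) (s : ℝ) :
    HasDerivAt (fun s : ℝ => zeta E a m (v.1 - s * v.2, v.2))
      (zeta E a m (v.1 - s * v.2, v.2) ᵥ* E) s := by
  rw [zeta_E hm0]
  have e : (fun s : ℝ => zeta E a m (v.1 - s * v.2, v.2)) = fun s : ℝ =>
      (∑ k ∈ Finset.range m, cz m (k + 1) (v.1 - s * v.2, v.2) • er E a (k + 1)) +
        v.2 ^ m • er E a 0 := by
    funext s
    rw [zeta, Finset.sum_range_succ']
    congr 2
    simp [cz]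
  rw [e]
  refine HasDerivAt.add_const _ (HasDerivAt.fun_sum fun k hk => ?_)
  exact (hasDerivAt_cz_one (Finset.mem_range.1 hk) v s).smul_const _

theorem hasDerivAt_zeta_two (hE : E * Eᵀ - Eᵀ * E = diagonal y)
    (hy : diagonal y * E - E * diagonal y = (2 : ℝ) • E) (ha : ∀ b, y b ≤ y a)
    (hya : y a = m) (v : ℝ × ℝ) (s : ℝ) :
    HasDerivAt (fun s : ℝ => zeta E a m (v.1, v.2 - s * v.1))
      (zeta E a m (v.1, v.2 - s * v.1) ᵥ* Eᵀ) s := by
  rw [zeta_F hE hy ha hya]
  have e : (fun s : ℝ => zeta E a m (v.1, v.2 - s * v.1)) = fun s : ℝ =>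
      (∑ k ∈ Finset.range m, cz m k (v.1, v.2 - s * v.1) • er E a k) +
        ((-v.1) ^ m / (m.factorial : ℝ)) • er E a m := by
    funext s
    rw [zeta, Finset.sum_range_succ]
    congr 2
    simp [cz]
  rw [e]
  refine HasDerivAt.add_const _ (HasDerivAt.fun_sum fun k hk => ?_)
  exact (hasDerivAt_cz_two (Finset.mem_range.1 hk) v s).smul_const _

end

section flow

attribute [local instance] Matrix.linftyOpNormedRing Matrix.linftyOpNormedAlgebra

theorem flow {g : ℝ → Fin n → ℝ} {A : Matrix (Fin n) (Fin n) ℝ}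
    (hg : ∀ s, HasDerivAt g (g s ᵥ* A) s) (s : ℝ) :
    g s = g 0 ᵥ* NormedSpace.exp (s • A) := by
  have hM : ∀ s : ℝ, HasDerivAt (fun u : ℝ => NormedSpace.exp (u • (-A)))
      ((-A) * NormedSpace.exp (s • (-A))) s := fun s => hasDerivAt_exp_smul_const' (-A) s
  have hMe : ∀ (s : ℝ) (c b : Fin n), HasDerivAt (fun u : ℝ => NormedSpace.exp (u • (-A)) c b)
      (((-A) * NormedSpace.exp (s • (-A))) c b) s := by
    intro s c b
    exact ((Matrix.entryLinearMap ℝ ℝ c b).toContinuousLinearMap.hasFDerivAt.comp_hasDerivAt s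
      (hM s))
  have hd : ∀ s, HasDerivAt (fun s => g s ᵥ* NormedSpace.exp (s • (-A))) 0 s := by
    intro s
    rw [hasDerivAt_pi]
    intro b
    have h1 : HasDerivAt (fun s => ∑ c, g s c * NormedSpace.exp (s • (-A)) c b)
        (∑ c, ((g s ᵥ* A) c * NormedSpace.exp (s • (-A)) c b +
          g s c * ((-A) * NormedSpace.exp (s • (-A))) c b)) s :=
      HasDerivAt.fun_sum fun c _ => ((hasDerivAt_pi.1 (hg s)) c).mul (hMe s c b)
    refine HasDerivAt.congr_deriv (f := fun s => (g s ᵥ* NormedSpace.exp (s • (-A))) b) h1 ?_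
    rw [Finset.sum_add_distrib]
    have h2 : ∑ c, (g s ᵥ* A) c * NormedSpace.exp (s • (-A)) c b =
        ((g s ᵥ* A) ᵥ* NormedSpace.exp (s • (-A))) b := rfl
    have h3 : ∑ c, g s c * ((-A) * NormedSpace.exp (s • (-A))) c b =
        (g s ᵥ* ((-A) * NormedSpace.exp (s • (-A)))) b := rfl
    rw [h2, h3, vecMul_vecMul, neg_mul, vecMul_neg]
    simp
  have hconst : ∀ s, g s ᵥ* NormedSpace.exp (s • (-A)) = g 0 := by
    intro s
    have h1 : ∀ x, DifferentiableAt ℝ (fun s => g s ᵥ* NormedSpace.exp (s • (-A))) x :=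
      fun x => (hd x).differentiableAt
    have h2 := is_const_of_deriv_eq_zero h1 (fun x => (hd x).deriv) s 0
    simpa using h2
  have h4 : NormedSpace.exp (s • (-A)) * NormedSpace.exp (s • A) = 1 := by
    rw [smul_neg, Matrix.exp_neg]
    exact Matrix.nonsing_inv_mul _ ((Matrix.isUnit_iff_isUnit_det _).1 (Matrix.isUnit_exp _))
  calc g s = g s ᵥ* (NormedSpace.exp (s • (-A)) * NormedSpace.exp (s • A)) := by
        rw [h4, vecMul_one]
    _ = g 0 ᵥ* NormedSpace.exp (s • A) := by rw [← vecMul_vecMul, hconst]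

end flow

section

variable {E : Matrix (Fin n) (Fin n) ℝ} {y : Fin n → ℝ} {a : Fin n} {m : ℕ}

theorem zeta_exp_E (hm0 : er E a (m + 1) = 0) (v : ℝ × ℝ) (s : ℝ) :
    zeta E a m v ᵥ* NormedSpace.exp (s • E) = zeta E a m (v.1 - s * v.2, v.2) := by
  have h := flow (fun s => hasDerivAt_zeta_one hm0 v s) s
  simpa using h.symm

theorem zeta_exp_F (hE : E * Eᵀ - Eᵀ * E = diagonal y)
    (hy : diagonal y * E - E * diagonal y = (2 : ℝ) • E) (ha : ∀ b, y b ≤ y a)
    (hya : y a = m) (v : ℝ × ℝ) (s : ℝ) :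
    zeta E a m v ᵥ* NormedSpace.exp (s • Eᵀ) = zeta E a m (v.1, v.2 - s * v.1) := by
  have h := flow (fun s => hasDerivAt_zeta_two hE hy ha hya v s) s
  simpa using h.symm

theorem zeta_exp_diag {x : Fin n → ℝ} (hx : diagonal x * E - E * diagonal x = E)
    (v : ℝ × ℝ) (s : ℝ) :
    zeta E a m v ᵥ* NormedSpace.exp (s • diagonal x) =
      Real.exp (s * x a) • zeta E a m (Real.exp (-s) * v.1, v.2) := by
  have hx' : diagonal x * E - E * diagonal x = (1 : ℝ) • E := by rw [one_smul]; exact hx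
  have h1 : s • diagonal x = diagonal (fun b => s * x b) := by
    rw [← diagonal_smul]; rfl
  have h2 : NormedSpace.exp (s • diagonal x) = diagonal (fun b => Real.exp (s * x b)) := by
    rw [h1, Matrix.exp_diagonal]
    congr 1
    funext b
    rw [Pi.coe_exp]
    exact (congrFun Real.exp_eq_exp_ℝ (s * x b)).symm
  rw [h2, zeta, sum_vecMul, zeta, Finset.smul_sum]
  refine Finset.sum_congr rfl fun k _ => ?_
  ext b
  rw [vecMul_diagonal, Pi.smul_apply, Pi.smul_apply, Pi.smul_apply, smul_eq_mul, smul_eq_mul,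
    smul_eq_mul]
  by_cases hb : er E a k b = 0
  · rw [hb]; ring
  · rw [er_supp hx' a k b hb]
    have h3 : Real.exp (s * (x a - k * 1)) = Real.exp (s * x a) * Real.exp (-s) ^ k := by
      rw [← Real.exp_nat_mul, ← Real.exp_add]
      congr 1
      ring
    rw [h3]
    simp only [cz]
    rw [neg_mul_eq_mul_neg, mul_pow]
    ring

theorem exists_max (y : Fin n → ℝ) (hn : Nonempty (Fin n)) : ∃ a, ∀ b, y b ≤ y a :=
  Finite.exists_max y

/-- the degree is positive -/
theorem deg_pos (hE : E * Eᵀ - Eᵀ * E = diagonal y) (ha : ∀ b, y b ≤ y a) (hya : y a = m)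
    (hy0 : y ≠ 0) : 0 < m := by
  have htr : ∑ b, y b = 0 := by
    have h1 : (E * Eᵀ - Eᵀ * E).trace = 0 := by
      rw [trace_sub, trace_mul_comm, sub_self]
    rw [hE, trace_diagonal] at h1
    exact h1
  rcases Nat.eq_zero_or_pos m with h | h
  · exfalso
    apply hy0
    have h2 : ∀ b, y b ≤ 0 := fun b => by
      have := ha b
      rw [hya, h, Nat.cast_zero] at this
      exact this
    have h3 := (Finset.sum_eq_zero_iff_of_nonpos (s := Finset.univ) (f := y)
      fun b _ => h2 b).1 htr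
    funext b
    exact h3 b (Finset.mem_univ b)
  · exact h

end

end Vale.Agent.P092.H268.Re
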