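import Vale.Agent.P092.H268.Re.Plane
import Vale.Agent.P092.H268.Re.Zeta
import Vale.Agent.P092.H793.Re.L3

/-!
P092 (helper268), project RE, block [RE-C]: a group with `RS ρ` and simple roots `Sr` has a chain
of commuting directions of length `r` with ping-pong families, the first one tending to infinity.
-/

set_option linter.all false

open Matrix Filter Topology Set

namespace Vale.Agent.P092.H268.Re

open Vale.Agent.P092.H793.Re
open Vale.Agent.P092.H701 (HChain)

variable {n : ℕ} {G : Type} [Group G] [TopologicalSpace G] {ρ : G →* SLn n}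

theorem val_mul (g g' : G) : (ρ (g * g')).1 = (ρ g).1 * (ρ g').1 := by
  rw [map_mul]; rfl

/-- the one parameter group of `X` -/
noncomputable def ops {X : Mat n} (hX : Lie ρ X) (s : ℝ) : G := (hX s).choose

theorem ops_spec {X : Mat n} (hX : Lie ρ X) (s : ℝ) :
    (ρ (ops hX s)).1 = NormedSpace.exp (s • X) := (hX s).choose_spec

theorem ops_cont (he : IsClosedEmbedding ρ) {X : Mat n} (hX : Lie ρ X) :
    Continuous (ops hX) := by
  rw [(emb_mat he).isEmbedding.continuous_iff]
  have e : (fun g : G => (ρ g).1) ∘ ops hX = fun s : ℝ => NormedSpace.exp (s • X) :=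
    funext fun s => ops_spec hX s
  rw [e]
  exact continuous_exp.comp (by fun_prop)

theorem exp_diag (s : ℝ) (x : Fin n → ℝ) :
    NormedSpace.exp (s • diagonal x : Mat n) = diagonal (fun b => Real.exp (s * x b)) := by
  have h1 : s • diagonal x = diagonal (fun b => s * x b) := by
    rw [← diagonal_smul]; rfl
  rw [h1, Matrix.exp_diagonal]
  congr 1
  funext b
  rw [Pi.coe_exp]
  exact (congrFun Real.exp_eq_exp_ℝ (s * x b)).symm

theorem comm_exp_exp {A B : Mat n} (h : A * B = B * A) (s t : ℝ) :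
    NormedSpace.exp (s • A) * NormedSpace.exp (t • B) =
      NormedSpace.exp (t • B) * NormedSpace.exp (s • A) := by
  have h1 : Commute (s • A) (t • B) := by
    show s • A * t • B = t • B * s • A
    simp only [Matrix.smul_mul, Matrix.mul_smul, h]
    rw [smul_comm]
  exact h1.exp

theorem exists_plane (hρ : RS ρ) {h : Fin n → ℝ} {r : ℕ} {p q : Fin r → Fin n}
    {w : Fin r → Fin n → ℝ} {E : Fin r → Mat n} (hs : Sr ρ h p q w E) (j : Fin r) :
    ∃ (P : Plane G) (c : ℕ → ℝ), (∀ t, (ρ (P.up t)).1 = NormedSpace.exp (t • E j)) ∧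
      (∀ t, (ρ (P.lo t)).1 = NormedSpace.exp (t • (E j)ᵀ)) ∧ (∀ i, 0 < c i) ∧
      ∀ (g : G) (i : ℕ), (ρ g).1 = NormedSpace.exp ((i : ℝ) • diagonal (w j)) → ∀ x v,
        P.N (g * x) v = c i * P.N x (Real.exp (-(i : ℝ)) * v.1, v.2) := by
  obtain ⟨y, hE, hy2⟩ := hs.Eh j
  have hEl := hs.El j
  have hFl : Lie ρ (E j)ᵀ := lie_transpose hρ.adj hEl
  have hyl : Lie ρ (diagonal y) := by
    rw [← hE]
    exact lie_bracket hρ.emb hEl hFl
  have hy : diagonal y * E j - E j * diagonal y = (2 : ℝ) • E j := by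
    rw [hs.Ew j y hyl, hy2]
  have hw : diagonal (w j) * E j - E j * diagonal (w j) = E j := by
    rw [hs.Ew j (w j) (hs.wl j), hs.dual j j, if_pos rfl, one_smul]
  have hy0 : y ≠ 0 := by
    rintro rfl
    simp at hy2
  obtain ⟨a, ha⟩ := exists_max y ⟨p j⟩
  obtain ⟨m, hya, hm0, hm1⟩ := exists_deg hE hy a ha
  have hm := deg_pos hE ha hya hy0
  have hc1 : Continuous fun z : G × (ℝ × ℝ) => zeta (E j) a m z.2 ᵥ* (ρ z.1).1 := by
    have h1 : Continuous fun z : G × (ℝ × ℝ) => zeta (E j) a m z.2 :=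
      (cont_zeta _ _ _).comp continuous_snd
    have h2 : Continuous fun z : G × (ℝ × ℝ) => (ρ z.1).1 :=
      (emb_mat hρ.emb).continuous.comp continuous_fst
    exact h1.matrix_vecMul h2
  refine ⟨{ N := fun x v => ‖zeta (E j) a m v ᵥ* (ρ x).1‖
            m := m
            hm := hm
            cont := hc1.norm
            hom := ?_
            pos := ?_
            up := ops hEl
            lo := ops hFl
            cont_up := ops_cont hρ.emb hEl
            cont_lo := ops_cont hρ.emb hFl
            upN := ?_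
            loN := ?_ }, fun i => Real.exp ((i : ℝ) * w j a), ops_spec hEl, ops_spec hFl,
            fun i => Real.exp_pos _, ?_⟩
  · intro x s hs v
    show ‖_‖ = s ^ m * ‖_‖
    rw [zeta_smul, smul_vecMul, norm_smul, Real.norm_eq_abs, abs_of_pos (pow_pos hs m)]
  · intro x v hv
    rw [norm_pos_iff]
    intro h0
    apply zeta_ne hy hm1 v hv
    calc zeta (E j) a m v = zeta (E j) a m v ᵥ* ((ρ x).1 * (ρ x⁻¹).1) := by
          rw [coe_mul_inv, vecMul_one]
      _ = 0 := by rw [← vecMul_vecMul, h0, zero_vecMul]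
  · intro t x v
    show ‖_‖ = ‖_‖
    rw [val_mul, ← vecMul_vecMul, ops_spec, zeta_exp_E hm0]
  · intro t x v
    show ‖_‖ = ‖_‖
    rw [val_mul, ← vecMul_vecMul, ops_spec, zeta_exp_F hE hy ha hya]
  · intro g i hg x v
    show ‖_‖ = _ * ‖_‖
    rw [val_mul, ← vecMul_vecMul, hg, zeta_exp_diag hw, smul_vecMul,
      norm_smul, Real.norm_eq_abs, abs_of_pos (Real.exp_pos _)]

theorem tendsto_ops (hρ : RS ρ) {w : Fin n → ℝ} (hw : Lie ρ (diagonal w)) (p q : Fin n)
    (hpq : w p - w q = 1) : Tendsto (fun i : ℕ => ops hw i) atTop (cocompact G) := by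
  haveI := topGroup hρ.emb
  rw [Filter.hasBasis_cocompact.tendsto_right_iff]
  intro S hS
  have hc : Continuous fun g : G => (ρ g).1 p p * (ρ g⁻¹).1 q q := by
    have h1 : Continuous fun g : G => (ρ g).1 := (emb_mat hρ.emb).continuous
    have h2 : Continuous fun g : G => (ρ g⁻¹).1 := h1.comp continuous_inv
    exact (h1.matrix_elem p p).mul (h2.matrix_elem q q)
  obtain ⟨C, hC⟩ := (hS.image hc).bddAbove
  have hinv : ∀ s : ℝ, (ρ (ops hw s)⁻¹).1 = diagonal (fun b => Real.exp (-(s * w b))) := by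
    intro s
    have h1 : (ρ (ops hw s)).1 = diagonal (fun b => Real.exp (s * w b)) := by
      rw [ops_spec, exp_diag]
    have h2 : (ρ (ops hw s)⁻¹).1 * (ρ (ops hw s)).1 = 1 := coe_inv_mul _
    have h3 : diagonal (fun b => Real.exp (s * w b)) *
        diagonal (fun b => Real.exp (-(s * w b))) = (1 : Mat n) := by
      rw [diagonal_mul_diagonal, ← diagonal_one]
      congr 1
      funext b
      rw [← Real.exp_add, add_neg_cancel, Real.exp_zero]
    rw [h1] at h2
    calc (ρ (ops hw s)⁻¹).1 = (ρ (ops hw s)⁻¹).1 * (diagonal (fun b => Real.exp (s * w b)) *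
          diagonal (fun b => Real.exp (-(s * w b)))) := by rw [h3, mul_one]
      _ = _ := by rw [← mul_assoc, h2, one_mul]
  have hval : ∀ i : ℕ, (ρ (ops hw i)).1 p p * (ρ (ops hw i)⁻¹).1 q q = Real.exp i := by
    intro i
    rw [hinv, ops_spec, exp_diag, diagonal_apply_eq, diagonal_apply_eq, ← Real.exp_add]
    congr 1
    have : w p = 1 + w q := by linarith
    rw [this]
    ring
  have hlim : Tendsto (fun i : ℕ => Real.exp (i : ℝ)) atTop atTop :=
    Real.tendsto_exp_atTop.comp tendsto_natCast_atTop_atTop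
  filter_upwards [hlim.eventually (eventually_gt_atTop C)] with i hi hmem
  have h1 := hC ⟨_, hmem, rfl⟩
  simp only at h1
  rw [hval] at h1
  linarith

/-- **[RE-C]**: the chain. -/
theorem chn (hρ : RS ρ) {h : Fin n → ℝ} {r : ℕ} {p q : Fin r → Fin n}
    {w : Fin r → Fin n → ℝ} {E : Fin r → Mat n} (hs : Sr ρ h p q w E) :
    letI : MeasurableSpace G := borel G
    ∃ C : HChain G r, ∀ hr : 0 < r, Tendsto (C.b ⟨0, hr⟩) atTop (cocompact G) := by
  letI : MeasurableSpace G := borel G
  haveI : BorelSpace G := ⟨rfl⟩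
  choose P c hup hlo hc hb using fun j => exists_plane hρ hs j
  have hcomm : ∀ i j, i ≠ j → diagonal (w i) * E j = E j * diagonal (w i) := by
    intro i j hij
    have h1 := hs.Ew j (w i) (hs.wl i)
    rw [hs.dual j i, if_neg hij.symm, zero_smul, sub_eq_zero] at h1
    exact h1
  have hcommT : ∀ i j, i ≠ j → diagonal (w i) * (E j)ᵀ = (E j)ᵀ * diagonal (w i) := by
    intro i j hij
    have h1 := congrArg transpose (hcomm i j hij)
    rw [transpose_mul, transpose_mul, diagonal_transpose] at h1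
    exact h1.symm
  refine ⟨{ b := fun j N => ops (hs.wl j) N
            K := fun j => (P j).K
            compact := fun j => (P j).isCompact_K
            comm_b := ?_
            comm_K := ?_
            pp := ?_ }, fun hr => tendsto_ops hρ (hs.wl ⟨0, hr⟩) _ _ (by
              rw [hs.dual, if_pos rfl])⟩
  · intro i j _ N M
    apply ρ_inj hρ.emb
    rw [val_mul, val_mul, ops_spec, ops_spec]
    refine comm_exp_exp ?_ _ _
    rw [diagonal_mul_diagonal, diagonal_mul_diagonal]
    congr 1
    funext b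
    exact mul_comm _ _
  · intro i j hij N x hx
    apply ρ_inj hρ.emb
    rw [val_mul, val_mul, ops_spec]
    rcases hx with ⟨t, -, rfl⟩ | ⟨t, -, rfl⟩
    · rw [hup]
      exact comm_exp_exp (hcomm i j hij.ne) _ _
    · rw [hlo]
      exact comm_exp_exp (hcommT i j hij.ne) _ _
  · intro j k
    have hα : Tendsto (fun i : ℕ => Real.exp (-(i : ℝ))) atTop (𝓝 0) :=
      Real.tendsto_exp_neg_atTop_nhds_zero.comp tendsto_natCast_atTop_atTop
    exact (P j).pp (fun N => ops (hs.wl j) N) (c j) (fun i => Real.exp (-(i : ℝ))) (hc j)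
      (fun i => Real.exp_pos _) hα
      (fun i x v => hb j _ i (ops_spec (hs.wl j) i) x v) k

end Vale.Agent.P092.H268.Re
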