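import Vale.Agent.P092.H701.Chain

/-!
P092 (helper268), project RE, block [RE-C], measure half: ping-pong families from an equivariant
family of gauges on the plane.  For `x : H` the gauge `N x` on `ℝ²` is continuous, homogeneous and
positive; the ping-pong sets are the sets of all `x` such that a given cone contains at least half
of the area of the unit ball of `N x`.
-/

set_option linter.all false

open Set Topology Filter MeasureTheory

namespace Vale.Agent.P092.H268.Re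

open Vale.Agent.P092.H701 (exists_pts)

/-- An equivariant family of gauges on the plane. -/
structure Plane (H : Type*) [Group H] [TopologicalSpace H] where
  N : H → ℝ × ℝ → ℝ
  m : ℕ
  hm : 0 < m
  cont : Continuous fun z : H × (ℝ × ℝ) => N z.1 z.2
  hom : ∀ x (s : ℝ), 0 < s → ∀ v, N x (s • v) = s ^ m * N x v
  pos : ∀ x v, v ≠ 0 → 0 < N x v
  up : ℝ → H
  lo : ℝ → H
  cont_up : Continuous up
  cont_lo : Continuous lo
  upN : ∀ t x v, N (up t * x) v = N x (v.1 - t * v.2, v.2)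
  loN : ∀ t x v, N (lo t * x) v = N x (v.1, v.2 - t * v.1)

namespace Plane

variable {H : Type*} [Group H] [TopologicalSpace H] (P : Plane H)

/-- the compact set of the ping-pong family -/
def K : Set H := P.up '' Metric.closedBall 0 1 ∪ P.lo '' Metric.closedBall 0 1

theorem isCompact_K : IsCompact P.K :=
  ((isCompact_closedBall 0 1).image P.cont_up).union ((isCompact_closedBall 0 1).image P.cont_lo)

/-- the unit ball of the gauge, without the origin -/
def D (x : H) : Set (ℝ × ℝ) := {v | v ≠ 0 ∧ P.N x v ≤ 1}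

theorem cont_N (x : H) : Continuous (P.N x) :=
  P.cont.comp (continuous_const.prodMk continuous_id)

theorem lower (x : H) : ∃ c : ℝ, 0 < c ∧ ∀ v, v ≠ 0 → c * ‖v‖ ^ P.m ≤ P.N x v := by
  have hne : (Metric.sphere (0 : ℝ × ℝ) 1).Nonempty := ⟨(1, 0), by simp [Prod.norm_def]⟩
  obtain ⟨u, hu, hmin⟩ := (isCompact_sphere (0 : ℝ × ℝ) 1).exists_isMinOn hne
    (P.cont_N x).continuousOn
  have hu0 : u ≠ 0 := by
    rintro rfl
    simp at hu
  refine ⟨P.N x u, P.pos x u hu0, fun v hv => ?_⟩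
  have hv' : 0 < ‖v‖ := norm_pos_iff.mpr hv
  have h1 : v = ‖v‖ • (‖v‖⁻¹ • v) := by
    rw [smul_smul, mul_inv_cancel₀ hv'.ne', one_smul]
  have h2 : ‖v‖⁻¹ • v ∈ Metric.sphere (0 : ℝ × ℝ) 1 := by
    rw [mem_sphere_zero_iff_norm, norm_smul, norm_inv, norm_norm, inv_mul_cancel₀ hv'.ne']
  have h3 : P.N x u ≤ P.N x (‖v‖⁻¹ • v) := hmin h2
  have h4 : P.N x v = ‖v‖ ^ P.m * P.N x (‖v‖⁻¹ • v) := by
    conv_lhs => rw [h1]
    exact P.hom x _ hv' _
  rw [h4, mul_comm]
  exact mul_le_mul_of_nonneg_left h3 (by positivity)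

theorem finite_D (x : H) : volume (P.D x) ≠ ⊤ := by
  obtain ⟨c, hc, h⟩ := P.lower x
  have hsub : P.D x ⊆ Metric.closedBall 0 (max 1 c⁻¹) := by
    rintro v ⟨hv, hv1⟩
    rw [mem_closedBall_zero_iff]
    rcases le_or_gt ‖v‖ 1 with h1 | h1
    · exact h1.trans (le_max_left _ _)
    · have h2 := (h v hv).trans hv1
      have h3 : ‖v‖ ≤ ‖v‖ ^ P.m := le_self_pow₀ h1.le P.hm.ne'
      have h4 : ‖v‖ ^ P.m ≤ c⁻¹ := by
        rw [← one_div, le_div_iff₀ hc, mul_comm]
        exact h2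
      exact (h3.trans h4).trans (le_max_right _ _)
  exact ((measure_mono hsub).trans_lt measure_closedBall_lt_top).ne

/-- an open set which contains a ray meets the ball in positive area -/
theorem pos_D (x : H) {U : Set (ℝ × ℝ)} (hU : IsOpen U) (u : ℝ × ℝ)
    (hu0 : u ≠ 0) (hu : ∀ s : ℝ, 0 < s → s • u ∈ U) : volume (P.D x ∩ U) ≠ 0 := by
  have hNu := P.pos x u hu0
  -- a small multiple
  obtain ⟨s, hs, hs1⟩ : ∃ s : ℝ, 0 < s ∧ s ^ P.m * P.N x u < 1 := by
    refine ⟨min 1 (2 * P.N x u)⁻¹, by positivity, ?_⟩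
    set s := min 1 (2 * P.N x u)⁻¹ with hs
    have h1 : s ≤ 1 := min_le_left _ _
    have h0 : 0 < s := by positivity
    have h2 : s ^ P.m ≤ s := pow_le_of_le_one h0.le h1 P.hm.ne'
    have h3 : s ≤ (2 * P.N x u)⁻¹ := min_le_right _ _
    calc s ^ P.m * P.N x u ≤ (2 * P.N x u)⁻¹ * P.N x u :=
          mul_le_mul_of_nonneg_right (h2.trans h3) hNu.le
      _ = 1 / 2 := by field_simp
      _ < 1 := by norm_num
  have hopen : IsOpen ({v | P.N x v < 1} ∩ U ∩ {v | v ≠ 0}) :=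
    ((isOpen_lt (P.cont_N x) continuous_const).inter hU).inter isOpen_ne
  have hne : ({v | P.N x v < 1} ∩ U ∩ {v | v ≠ 0}).Nonempty := by
    refine ⟨s • u, ⟨?_, hu s hs⟩, smul_ne_zero hs.ne' hu0⟩
    show P.N x (s • u) < 1
    rw [P.hom x s hs]
    exact hs1
  have h5 := hopen.measure_pos volume hne
  refine (h5.trans_le (measure_mono ?_)).ne'
  rintro v ⟨⟨h1, h2⟩, h3⟩
  exact ⟨⟨h3, le_of_lt h1⟩, h2⟩

theorem meas_N [MeasurableSpace H] [OpensMeasurableSpace H] :
    Measurable fun z : H × (ℝ × ℝ) => P.N z.1 z.2 := P.cont.measurable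

/-- the area of the part of the ball in a measurable set depends measurably on `x` -/
theorem measurable_area [MeasurableSpace H] [OpensMeasurableSpace H] {C : Set (ℝ × ℝ)}
    (hC : MeasurableSet C) : Measurable fun x => volume (P.D x ∩ C) := by
  have h1 : MeasurableSet {z : H × (ℝ × ℝ) | (z.2 ≠ 0 ∧ P.N z.1 z.2 ≤ 1) ∧ z.2 ∈ C} := by
    refine MeasurableSet.inter (MeasurableSet.inter ?_ ?_) (measurable_snd hC)
    · exact measurable_snd (isOpen_ne (x := (0 : ℝ × ℝ))).measurableSet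
    · exact measurableSet_le P.meas_N measurable_const
  exact measurable_measure_prodMk_left h1

/-- the ping-pong set of a cone -/
def B (C : Set (ℝ × ℝ)) : Set H := {x | volume (P.D x ∩ Cᶜ) ≤ volume (P.D x ∩ C)}

theorem meas_B [MeasurableSpace H] [OpensMeasurableSpace H] {C : Set (ℝ × ℝ)}
    (hC : MeasurableSet C) : MeasurableSet (P.B C) :=
  measurableSet_le (P.measurable_area hC.compl) (P.measurable_area hC)

theorem disjoint_B {C C' : Set (ℝ × ℝ)} (hC : IsClosed C) (hC' : IsClosed C')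
    (h0 : ∀ v ∈ C, v ∈ C' → v = 0) (u : ℝ × ℝ) (hu0 : u ≠ 0)
    (hu : ∀ s : ℝ, 0 < s → s • u ∉ C) (hu' : ∀ s : ℝ, 0 < s → s • u ∉ C') :
    Disjoint (P.B C) (P.B C') := by
  rw [Set.disjoint_left]
  intro x h1 h2
  have h1 : volume (P.D x ∩ Cᶜ) ≤ volume (P.D x ∩ C) := h1
  have h2 : volume (P.D x ∩ C'ᶜ) ≤ volume (P.D x ∩ C') := h2
  have hpos := P.pos_D x (hC.isOpen_compl.inter hC'.isOpen_compl) u hu0
    fun s hs => ⟨hu s hs, hu' s hs⟩
  set δ := volume (P.D x ∩ (Cᶜ ∩ C'ᶜ)) with hδ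
  have hfin : volume (P.D x ∩ C) ≠ ⊤ := ne_top_of_le_ne_top (P.finite_D x)
    (measure_mono inter_subset_left)
  have hDm : MeasurableSet (P.D x) := by
    refine MeasurableSet.inter ?_ ?_
    · exact (isOpen_ne (x := (0 : ℝ × ℝ))).measurableSet
    · exact (isClosed_le (P.cont_N x) continuous_const).measurableSet
  have key : ∀ {A A' : Set (ℝ × ℝ)}, IsClosed A → IsClosed A' → (∀ v ∈ A, v ∈ A' → v = 0) →
      volume (P.D x ∩ A') + volume (P.D x ∩ (Aᶜ ∩ A'ᶜ)) ≤ volume (P.D x ∩ Aᶜ) := by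
    intro A A' hA hA' h0
    rw [← measure_union]
    · refine measure_mono ?_
      rintro v (⟨hv, hvA⟩ | ⟨hv, hvA⟩)
      · exact ⟨hv, fun h => hv.1 (h0 v h hvA)⟩
      · exact ⟨hv, hvA.1⟩
    · rw [Set.disjoint_left]
      rintro v ⟨-, hv⟩ ⟨-, hv'⟩
      exact hv'.2 hv
    · exact hDm.inter (hA.isOpen_compl.inter hA'.isOpen_compl).measurableSet
  have k1 := (key hC hC' h0).trans h1
  have k2 := (key hC' hC (fun v h h' => h0 v h' h)).trans h2
  rw [inter_comm C'ᶜ Cᶜ] at k2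
  rw [← hδ] at k1 k2
  have k3 : volume (P.D x ∩ C) + (δ + δ) ≤ volume (P.D x ∩ C) := by
    calc volume (P.D x ∩ C) + (δ + δ) = (volume (P.D x ∩ C) + δ) + δ := by rw [add_assoc]
      _ ≤ volume (P.D x ∩ C') + δ := by gcongr
      _ ≤ _ := k1
  have k4 : δ + δ ≤ 0 := by
    have k3' : volume (P.D x ∩ C) + (δ + δ) ≤ volume (P.D x ∩ C) + 0 := by
      rw [add_zero]; exact k3
    exact (ENNReal.add_le_add_iff_left hfin).1 k3'
  have k5 : δ = 0 := by
    have := nonpos_iff_eq_zero.1 k4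
    exact (add_eq_zero.1 this).1
  exact hpos k5

/-- **One step of the ping-pong.** -/
theorem step {x g : H} {c : ℝ} (hc : 0 < c) (T : (ℝ × ℝ) ≃ₗ[ℝ] (ℝ × ℝ))
    (hN : ∀ v, P.N (g * x) v = c * P.N x (T v)) {C C' : Set (ℝ × ℝ)}
    (hcone : ∀ s : ℝ, 0 < s → ∀ v, s • v ∈ C ↔ v ∈ C) (hT : ∀ v, v ∉ C' → T v ∈ C)
    (hx : x ∉ P.B C) : g * x ∈ P.B C' := by
  have hx : volume (P.D x ∩ C) < volume (P.D x ∩ Cᶜ) := not_le.1 hx
  set s : ℝ := c ^ ((P.m : ℝ)⁻¹) with hs
  have hs0 : 0 < s := Real.rpow_pos_of_pos hc _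
  have hsm : s ^ P.m = c := Real.rpow_inv_natCast_pow hc.le P.hm.ne'
  set L : ℝ × ℝ →ₗ[ℝ] ℝ × ℝ := s • (T : ℝ × ℝ →ₗ[ℝ] ℝ × ℝ) with hL
  have hLv : ∀ v, L v = s • T v := fun v => rfl
  have hdet : LinearMap.det L ≠ 0 := by
    rw [hL, LinearMap.det_smul]
    exact mul_ne_zero (pow_ne_zero _ hs0.ne') (LinearEquiv.isUnit_det' T).ne_zero
  have hD : P.D (g * x) = L ⁻¹' (P.D x) := by
    ext v
    simp only [D, Set.mem_setOf_eq, Set.mem_preimage, hLv]
    rw [hN, P.hom x s hs0, hsm]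
    have h1 : s • T v ≠ 0 ↔ v ≠ 0 := by
      rw [smul_ne_zero_iff]
      constructor
      · rintro ⟨-, h⟩ rfl
        exact h (map_zero T)
      · intro h
        exact ⟨hs0.ne', fun h' => h (by simpa using h')⟩
    rw [h1]
  have hpre : ∀ S : Set (ℝ × ℝ), (∀ v, s • v ∈ S ↔ v ∈ S) →
      P.D (g * x) ∩ T ⁻¹' S = L ⁻¹' (P.D x ∩ S) := by
    intro S hS
    rw [hD]
    ext v
    simp only [Set.mem_inter_iff, Set.mem_preimage, hLv]
    rw [hS]
  have harea : ∀ S : Set (ℝ × ℝ), (∀ v, s • v ∈ S ↔ v ∈ S) →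
      volume (P.D (g * x) ∩ T ⁻¹' S) =
        ENNReal.ofReal |(LinearMap.det L)⁻¹| * volume (P.D x ∩ S) := by
    intro S hS
    rw [hpre S hS]
    exact Measure.addHaar_preimage_linearMap volume hdet _
  show volume (P.D (g * x) ∩ C'ᶜ) ≤ volume (P.D (g * x) ∩ C')
  calc volume (P.D (g * x) ∩ C'ᶜ) ≤ volume (P.D (g * x) ∩ T ⁻¹' C) :=
        measure_mono (inter_subset_inter_right _ fun v hv => hT v hv)
    _ = ENNReal.ofReal |(LinearMap.det L)⁻¹| * volume (P.D x ∩ C) := harea C (hcone s hs0)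
    _ ≤ ENNReal.ofReal |(LinearMap.det L)⁻¹| * volume (P.D x ∩ Cᶜ) := by gcongr
    _ = volume (P.D (g * x) ∩ T ⁻¹' Cᶜ) :=
        (harea Cᶜ fun v => not_congr (hcone s hs0 v)).symm
    _ ≤ volume (P.D (g * x) ∩ C') := by
        refine measure_mono (inter_subset_inter_right _ fun v hv => ?_)
        by_contra h
        exact hv (hT v h)

/-- the linear map of `κ b κ'` -/
noncomputable def tm (t α : ℝ) (hα : α ≠ 0) : (ℝ × ℝ) ≃ₗ[ℝ] (ℝ × ℝ) where
  toFun v := (α * v.1 - t * (v.2 - t * v.1), v.2 - t * v.1)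
  invFun v := ((v.1 + t * v.2) / α, v.2 + t * ((v.1 + t * v.2) / α))
  map_add' v w := by
    ext
    · simp only [Prod.fst_add, Prod.snd_add]; ring
    · simp only [Prod.fst_add, Prod.snd_add]; ring
  map_smul' s v := by
    ext
    · simp only [Prod.smul_fst, Prod.smul_snd, smul_eq_mul, RingHom.id_apply]; ring
    · simp only [Prod.smul_fst, Prod.smul_snd, smul_eq_mul, RingHom.id_apply]; ring
  left_inv v := by
    ext
    · simp only []; field_simp; ring
    · simp only []; field_simp; ring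
  right_inv v := by
    ext
    · simp only []; field_simp; ring
    · simp only []; field_simp; ring

/-- the repelling cones -/
def Cm (t ε : ℝ) : Set (ℝ × ℝ) := {v | |v.1 + t * v.2| ≤ ε * |v.2|}

/-- the attracting cones -/
def Cp (t ε : ℝ) : Set (ℝ × ℝ) := {v | |v.2 - t * v.1| ≤ ε * |v.1|}

theorem isClosed_Cm (t ε : ℝ) : IsClosed (Cm t ε) :=
  isClosed_le (by fun_prop) (by fun_prop)

theorem isClosed_Cp (t ε : ℝ) : IsClosed (Cp t ε) :=
  isClosed_le (by fun_prop) (by fun_prop)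

theorem cone_Cm (t ε s : ℝ) (hs : 0 < s) (v : ℝ × ℝ) : s • v ∈ Cm t ε ↔ v ∈ Cm t ε := by
  simp only [Cm, Set.mem_setOf_eq, Prod.smul_fst, Prod.smul_snd, smul_eq_mul]
  have h1 : s * v.1 + t * (s * v.2) = s * (v.1 + t * v.2) := by ring
  rw [h1, abs_mul, abs_mul, abs_of_pos hs,
    show ε * (s * |v.2|) = s * (ε * |v.2|) by ring]
  exact mul_le_mul_iff_right₀ hs

/-- **The ping-pong family.** -/
theorem pp [MeasurableSpace H] [OpensMeasurableSpace H] (b : ℕ → H) (c α : ℕ → ℝ)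
    (hc : ∀ i, 0 < c i) (hα : ∀ i, 0 < α i) (hlim : Tendsto α atTop (𝓝 0))
    (hb : ∀ i x v, P.N (b i * x) v = c i * P.N x (α i * v.1, v.2)) (p : ℕ) :
    ∃ N₀, ∀ N, N₀ ≤ N → ∃ (κ κ' : Fin p → H) (Bm Bp : Fin p → Set H),
      (∀ l, κ l ∈ P.K) ∧ (∀ l, κ' l ∈ P.K) ∧
      (∀ l, MeasurableSet (Bm l)) ∧ (∀ l, MeasurableSet (Bp l)) ∧
      (∀ l l', l ≠ l' → Disjoint (Bm l) (Bm l')) ∧
      (∀ l l', l ≠ l' → Disjoint (Bp l) (Bp l')) ∧
      ∀ l x, x ∉ Bm l → κ l * b N * κ' l * x ∈ Bp l := by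
  obtain ⟨t, η, hη, hη1, ht, hsep⟩ := exists_pts ℝ p
  have hε : 0 < η / 4 := by positivity
  obtain ⟨N₀, hN₀⟩ := Filter.eventually_atTop.1
    (hlim.eventually (gt_mem_nhds (show (0 : ℝ) < η / 4 * (η / 4) by positivity)))
  refine ⟨N₀, fun i hi => ⟨fun l => P.lo (t l), fun l => P.up (t l),
    fun l => P.B (Cm (t l) (η / 4)), fun l => P.B (Cp (t l) (η / 4)), ?_, ?_, ?_, ?_, ?_, ?_, ?_⟩⟩
  · intro l
    exact Or.inr ⟨t l, by simpa using ht l, rfl⟩
  · intro l
    exact Or.inl ⟨t l, by simpa using ht l, rfl⟩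
  · intro l
    exact P.meas_B (isClosed_Cm _ _).measurableSet
  · intro l
    exact P.meas_B (isClosed_Cp _ _).measurableSet
  · intro l l' hl
    refine P.disjoint_B (isClosed_Cm _ _) (isClosed_Cm _ _) ?_ (1, 0) (by simp) ?_ ?_
    · intro v h1 h2
      simp only [Cm, Set.mem_setOf_eq] at h1 h2
      have h3 : η ≤ |t l - t l'| := hsep l l' hl
      have h4 : |t l - t l'| * |v.2| ≤ η / 2 * |v.2| := by
        rw [← abs_mul]
        calc |(t l - t l') * v.2| = |(v.1 + t l * v.2) - (v.1 + t l' * v.2)| := by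
              congr 1; ring
          _ ≤ |v.1 + t l * v.2| + |v.1 + t l' * v.2| := abs_sub _ _
          _ ≤ η / 4 * |v.2| + η / 4 * |v.2| := add_le_add h1 h2
          _ = η / 2 * |v.2| := by ring
      have h5 : η * |v.2| ≤ η / 2 * |v.2| :=
        (mul_le_mul_of_nonneg_right h3 (abs_nonneg _)).trans h4
      have h6 : |v.2| = 0 := by
        have := abs_nonneg v.2
        nlinarith
      have h7 : v.2 = 0 := abs_eq_zero.1 h6
      rw [h7] at h1
      have h8 : v.1 = 0 := by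
        have := abs_nonneg v.1
        simp only [mul_zero, add_zero, abs_zero] at h1
        exact abs_eq_zero.1 (le_antisymm h1 this)
      exact Prod.ext h8 h7
    · intro s hs h
      simp only [Cm, Set.mem_setOf_eq, Prod.smul_mk, smul_eq_mul, mul_one, mul_zero, add_zero,
        abs_zero] at h
      have := abs_pos.2 hs.ne'
      linarith
    · intro s hs h
      simp only [Cm, Set.mem_setOf_eq, Prod.smul_mk, smul_eq_mul, mul_one, mul_zero, add_zero,
        abs_zero] at h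
      have := abs_pos.2 hs.ne'
      linarith
  · intro l l' hl
    refine P.disjoint_B (isClosed_Cp _ _) (isClosed_Cp _ _) ?_ (0, 1) (by simp) ?_ ?_
    · intro v h1 h2
      simp only [Cp, Set.mem_setOf_eq] at h1 h2
      have h3 : η ≤ |t l - t l'| := hsep l l' hl
      have h4 : |t l - t l'| * |v.1| ≤ η / 2 * |v.1| := by
        rw [← abs_mul]
        calc |(t l - t l') * v.1| = |(v.2 - t l' * v.1) - (v.2 - t l * v.1)| := by
              congr 1; ring
          _ ≤ |v.2 - t l' * v.1| + |v.2 - t l * v.1| := abs_sub _ _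
          _ ≤ η / 4 * |v.1| + η / 4 * |v.1| := add_le_add h2 h1
          _ = η / 2 * |v.1| := by ring
      have h5 : η * |v.1| ≤ η / 2 * |v.1| :=
        (mul_le_mul_of_nonneg_right h3 (abs_nonneg _)).trans h4
      have h6 : |v.1| = 0 := by
        have := abs_nonneg v.1
        nlinarith
      have h7 : v.1 = 0 := abs_eq_zero.1 h6
      rw [h7] at h1
      have h8 : v.2 = 0 := by
        have := abs_nonneg v.2
        simp only [mul_zero, sub_zero, abs_zero] at h1
        exact abs_eq_zero.1 (le_antisymm h1 this)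
      exact Prod.ext h7 h8
    · intro s hs h
      simp only [Cp, Set.mem_setOf_eq, Prod.smul_mk, smul_eq_mul, mul_one, mul_zero, sub_zero,
        abs_zero] at h
      have := abs_pos.2 hs.ne'
      linarith
    · intro s hs h
      simp only [Cp, Set.mem_setOf_eq, Prod.smul_mk, smul_eq_mul, mul_one, mul_zero, sub_zero,
        abs_zero] at h
      have := abs_pos.2 hs.ne'
      linarith
  · intro l x hx
    have hαi := hα i
    refine P.step (C := Cm (t l) (η / 4)) (hc i) (tm (t l) (α i) hαi.ne') ?_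
      (fun s hs v => cone_Cm _ _ s hs v) ?_ hx
    · intro v
      rw [mul_assoc, mul_assoc, P.loN, hb, P.upN]
      rfl
    · intro v hv
      simp only [Cp, Set.mem_setOf_eq, not_le] at hv
      show |(α i * v.1 - t l * (v.2 - t l * v.1)) + t l * (v.2 - t l * v.1)| ≤
        η / 4 * |v.2 - t l * v.1|
      rw [sub_add_cancel, abs_mul, abs_of_pos hαi]
      have h1 : α i < η / 4 * (η / 4) := hN₀ i hi
      calc α i * |v.1| ≤ η / 4 * (η / 4) * |v.1| :=
            mul_le_mul_of_nonneg_right h1.le (abs_nonneg _)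
        _ = η / 4 * (η / 4 * |v.1|) := by ring
        _ ≤ η / 4 * |v.2 - t l * v.1| := mul_le_mul_of_nonneg_left hv.le hε.le

end Plane

end Vale.Agent.P092.H268.Re
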